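import Vale.Agent.P267.H399.Calc3

/-! P290 / H416: existence of a Hermitian metric on a compact complex surface (copy of
`P267/H158/Herm.lean` with a short import chain). -/

set_option linter.unusedSectionVars false

open scoped Manifold ContDiff ComplexConjugate Matrix ComplexOrder Topology
open Set Filter

noncomputable section

namespace Vale.Agent.P290.H416

open Vale.Agent.P267.FL

theorem reg0_of_contMDiff {X : Type*} [TopologicalSpace X] [ChartedSpace C2 X]
    [IsManifold 𝓘(ℂ, C2) ω X] {u : X → ℝ} (hu : ContMDiff 𝓘(ℝ, C2) 𝓘(ℝ, ℝ) ∞ u) :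
    Reg0 ∞ 0 (fun x => (u x : ℂ)) := by
  have hM : IsManifold 𝓘(ℝ, C2) ω X := isManifold_real
  have hM' : IsManifold 𝓘(ℝ, C2) ∞ X := IsManifold.of_le (n := ω) le_top
  intro e he
  rw [LB.loc0_zero]
  have h1 : ContMDiffOn 𝓘(ℝ, C2) 𝓘(ℝ, C2) ∞ e.symm e.target :=
    contMDiffOn_symm_of_mem_maximalAtlas (IsManifold.subset_maximalAtlas he)
  have h2 : ContMDiffOn 𝓘(ℝ, C2) 𝓘(ℝ, ℝ) ∞ (u ∘ e.symm) e.target := hu.comp_contMDiffOn h1
  have h3 := contMDiffOn_iff_contDiffOn.1 h2
  exact Complex.ofRealCLM.contDiff.comp_contDiffOn h3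

section metric

variable {X : Type*} [TopologicalSpace X] [ChartedSpace C2 X]

/-- the flat metric of the chart `e`, in preferred coordinates -/
def flatM (e : Ch X) (x : X) : Matrix (Fin 2) (Fin 2) ℂ :=
  (jacM (chartAt C2 x) e x)ᵀ * (jacM (chartAt C2 x) e x).map conj

variable [IsManifold 𝓘(ℂ, C2) ω X]

theorem flatM_posDef {e : Ch X} (he : e ∈ atlas C2 X) {x : X} (hx : x ∈ e.source) :
    (flatM e x).PosDef := by
  set N := jacM (chartAt C2 x) e x with hN
  have h1 : flatM e x = (N.map conj)ᴴ * (N.map conj) := by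
    rw [flatM, ← hN]
    congr 1
    ext i j
    simp [Matrix.conjTranspose_apply]
  rw [h1]
  apply Matrix.PosDef.conjTranspose_mul_self
  have hdet : (N.map conj).det ≠ 0 := by
    have h2 : (N.map conj).det = conj N.det := by
      rw [Matrix.det_fin_two, Matrix.det_fin_two]
      simp [Matrix.map_apply]
    rw [h2]
    exact (map_ne_zero _).2 (jacM_det_ne_zero (chart_mem_atlas C2 x) he (mem_chart_source C2 x) hx)
  exact Matrix.mulVec_injective_of_isUnit ((Matrix.isUnit_iff_isUnit_det _).2 (isUnit_iff_ne_zero.2 hdet))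

/-- components of the flat metric of `e` in another chart -/
theorem loc11_flatM {e e' : Ch X} (he : e ∈ atlas C2 X) (he' : e' ∈ atlas C2 X) {x : X}
    (hx : x ∈ e.source) (hx' : x ∈ e'.source) (i j : Fin 2) :
    loc11 e' (flatM e) (e' x) i j = ∑ p, jacM e' e x p i * conj (jacM e' e x p j) := by
  have h1 : jacM e' e x = jacM (chartAt C2 x) e x * jac e' x :=
    jacM_comp he' (chart_mem_atlas C2 x) he hx' (mem_chart_source C2 x) hx
  rw [h1]
  simp only [loc11, e'.left_inv hx', Matrix.of_apply, flatM, Matrix.mul_apply, Fin.sum_univ_two,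
    Matrix.transpose_apply, Matrix.map_apply, smul_eq_mul, map_add, map_mul]
  ring

theorem loc11_flatM_contDiffAt {e e' : Ch X} (he : e ∈ atlas C2 X) (he' : e' ∈ atlas C2 X) {z : C2}
    (hz : z ∈ e'.target) (hx : e'.symm z ∈ e.source) (i j : Fin 2) :
    ContDiffAt ℝ ∞ (fun w => loc11 e' (flatM e) w i j) z := by
  have h1 : (fun w => loc11 e' (flatM e) w i j) =ᶠ[𝓝 z] fun w =>
      ∑ p, jacM e' e (e'.symm w) p i * conj (jacM e' e (e'.symm w) p j) := by
    filter_upwards [(isOpen_trans e' e).mem_nhds ⟨hz, hx⟩] with w hw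
    have := loc11_flatM he he' hw.2 (e'.map_target hw.1) i j
    rwa [e'.right_inv hw.1] at this
  refine ContDiffAt.congr_of_eventuallyEq ?_ h1
  have h2 : ∀ p q, ContDiffAt ℝ ∞ (fun w => jacM e' e (e'.symm w) p q) z := by
    intro p q
    have h3 := jacM_analyticAt he' he (e'.map_target hz) hx p q
    rw [e'.right_inv hz] at h3
    exact (h3.contDiffAt (n := ∞)).restrict_scalars ℝ
  refine ContDiffAt.sum fun p _ => (h2 p i).mul ?_
  exact Complex.conjCLE.contDiff.contDiffAt.comp z (h2 p j)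

variable (X) in
/-- **a compact complex surface has a smooth Hermitian metric** -/
theorem exists_isHerm [CompactSpace X] [T2Space X] :
    ∃ g : X → Matrix (Fin 2) (Fin 2) ℂ, IsHerm g := by
  classical
  have hM : IsManifold 𝓘(ℝ, C2) ∞ X := isManifold_real' ∞
  obtain ⟨ρ, hρ⟩ := SmoothPartitionOfUnity.exists_isSubordinate_chartAt_source 𝓘(ℝ, C2) X
  have hfin : {i | (Function.support (ρ i)).Nonempty}.Finite :=
    ρ.locallyFinite.finite_nonempty_of_compact
  set S := hfin.toFinset with hS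
  have hmem : ∀ i x, ρ i x ≠ 0 → i ∈ S := fun i x hx => by
    rw [hS, Set.Finite.mem_toFinset]
    exact ⟨x, hx⟩
  have hsum : ∀ x, ∑ i ∈ S, ρ i x = 1 := by
    intro x
    have h1 := ρ.sum_eq_one (mem_univ x)
    rw [finsum_eq_sum_of_support_subset (s := S)] at h1
    · exact h1
    · intro i hi
      exact hmem i x hi
  have hsrc : ∀ i x, ρ i x ≠ 0 → x ∈ (chartAt C2 i).source := fun i x hx =>
    hρ i (subset_closure hx)
  refine ⟨fun x => ∑ i ∈ S, (ρ i x : ℂ) • flatM (chartAt C2 i) x, fun x => ?_, fun e' he' i j => ?_⟩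
  · have hpos : ∃ i ∈ S, 0 < ρ i x := by
      by_contra hcon
      push Not at hcon
      have : ∑ i ∈ S, ρ i x ≤ 0 := Finset.sum_nonpos hcon
      rw [hsum] at this
      linarith
    obtain ⟨i₀, hi₀, h0⟩ := hpos
    rw [← Finset.add_sum_erase _ _ hi₀]
    refine Matrix.PosDef.add_posSemidef ?_ ?_
    · refine Matrix.PosDef.smul (flatM_posDef (chart_mem_atlas C2 _) (hsrc i₀ x h0.ne')) ?_
      exact_mod_cast h0
    · refine Matrix.posSemidef_sum _ fun i _ => ?_
      by_cases hi : ρ i x = 0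
      · rw [hi, Complex.ofReal_zero, zero_smul]
        exact Matrix.PosSemidef.zero
      · refine Matrix.PosSemidef.smul
          (flatM_posDef (chart_mem_atlas C2 _) (hsrc i x hi)).posSemidef ?_
        exact_mod_cast ρ.nonneg i x
  · have h1 : (fun z => loc11 e' (fun x => ∑ i ∈ S, (ρ i x : ℂ) • flatM (chartAt C2 i) x) z i j) =
        fun z => ∑ k ∈ S, (ρ k (e'.symm z) : ℂ) * loc11 e' (flatM (chartAt C2 k)) z i j := by
      funext z
      simp only [loc11, Matrix.of_apply, Matrix.sum_apply, Matrix.smul_apply, smul_eq_mul,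
        Fin.sum_univ_two, Finset.mul_sum, ← Finset.sum_add_distrib]
      exact Finset.sum_congr rfl fun k _ => by ring
    rw [h1]
    refine ContDiffOn.sum fun k _ => ?_
    intro z hz
    refine ContDiffAt.contDiffWithinAt ?_
    by_cases hk : e'.symm z ∈ tsupport (ρ k)
    · refine ContDiffAt.mul ?_ (loc11_flatM_contDiffAt (chart_mem_atlas C2 k) he' hz (hρ k hk) i j)
      have h2 : Reg0 ∞ 0 (fun x => ((ρ k x : ℝ) : ℂ)) := reg0_of_contMDiff (ρ k).contMDiff
      have h3 := h2.contDiffAt he' hz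
      rwa [LB.loc0_zero] at h3
    · have h2 : (fun z => (ρ k (e'.symm z) : ℂ) * loc11 e' (flatM (chartAt C2 k)) z i j) =ᶠ[𝓝 z]
          fun _ => 0 := by
        have h3 : ContinuousAt e'.symm z := e'.continuousAt_symm hz
        have h4 : ∀ᶠ w in 𝓝 z, e'.symm w ∉ tsupport (ρ k) :=
          h3.eventually ((isClosed_tsupport _).isOpen_compl.mem_nhds hk)
        filter_upwards [h4] with w hw
        rw [image_eq_zero_of_notMem_tsupport hw]
        simp
      exact contDiffAt_const.congr_of_eventuallyEq h2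

end metric

end Vale.Agent.P290.H416
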