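import Vale.Agent.P290.H416.SurfFL
import Vale.Agent.P290.H437.FLExact
import Vale.Agent.P290.H445.Bridge
import Vale.Agent.P290.H416.Herm

/-! P290 / H416: literal statements (language of helper399) on compact simply connected complex
surfaces, in particular on K3 surfaces (`All.K3`): `H^{0,1} = 0` and the inequality NEG for closed
real two-forms. -/

set_option linter.unusedSectionVars false
set_option linter.unusedVariables false

open scoped Manifold ContDiff ComplexConjugate Topology
open MeasureTheory Set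

noncomputable section

namespace Vale.Agent.P290.H416

open Vale.Agent.P267.FL Vale.Agent.P267.H469 Vale.Agent.P267.H661

section surf

variable {X : Type*} [TopologicalSpace X] [ChartedSpace C2 X] [IsManifold 𝓘(ℂ, C2) ω X]
variable [T2Space X] [CompactSpace X] [SimplyConnectedSpace X]

/-- on a simply connected surface closed one-forms are exact -/
theorem exact_one {A : Om1 X} (hA : D1 A = 0) : ∃ u : S0 X, A = D0 u := by
  have hc : Vale.Agent.P290.H437.ClosedF (toA A) := by
    refine ⟨toA_smooth A, ?_, ?_, ?_⟩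
    · exact congrArg (fun F : Om2 X => (F.1 : X → ℂ)) hA
    · exact congrArg (fun F : Om2 X => (F.2.1 : X → Matrix (Fin 2) (Fin 2) ℂ)) hA
    · exact congrArg (fun F : Om2 X => (F.2.2 : X → ℂ)) hA
  obtain ⟨u, hu, h⟩ := Vale.Agent.P290.H437.exists_dF0 hc
  refine ⟨⟨u, hu⟩, Prod.ext (Subtype.ext ?_) (Subtype.ext ?_)⟩
  · exact (congrArg OneF.f10 h).symm
  · exact (congrArg OneF.f01 h).symm

/-- **`H^{0,1} = 0`** for compact simply connected complex surfaces. -/
theorem dbar_solve {a : X → Fin 2 → ℂ} (ha : Reg1 ∞ 0 a) (h0 : ∀ x, dbar1 0 a x = 0) :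
    ∃ u : X → ℂ, Reg0 ∞ 0 u ∧ ∀ x i, dbar0 0 u x i = a x i := by
  obtain ⟨g, hg⟩ := exists_isHerm X
  obtain ⟨u, hu⟩ := (scal0 hg).H01 (fun A hA => exact_one hA) (a := ((0, ⟨a, ha⟩) : Om1 X)) rfl (by
    refine Prod.ext rfl (Prod.ext rfl (Subtype.ext ?_))
    funext x
    exact h0 x)
  refine ⟨u, u.2, fun x i => ?_⟩
  have h1 := congrArg (fun A : Om1 X => (A.2 : X → Fin 2 → ℂ) x i) hu
  exact h1.symm

end surf

end Vale.Agent.P290.H416
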