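import Vale.Agent.P290.H416.K3Dep
import Vale.Agent.P290.H416.Iso2
import Vale.Agent.P290.H722.Neg
import Vale.Agent.P290.H95.Goal

/-! P290 / H416, package F2-ISO: a K3 surface with a nonzero isotropic class of type `(1,1)` is
elliptic. -/

open scoped Manifold ContDiff Topology ComplexConjugate Matrix ComplexOrder
open Set Filter Vale.Agent.P267 Vale.Agent.P267.H332 Vale.Agent.P267.FL Vale.Agent.P267.H757
open Vale.Agent.P267.H469 Vale.Agent.P267.H661
open Vale.Agent.P290.H342 Vale.Agent.P290.H362 Vale.Agent.P290.H445 Vale.Agent.P267.BlockC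
open Vale.Agent.P267.RR
open Vale.Agent.P290.K (P1)

namespace Vale.Agent.P290.H416

noncomputable section

/-- A base point free pencil of nonzero class makes the surface elliptic. -/
theorem elliptic_of_bpf {Z : All.K3} {T : DivTh FL.C2 Z.X} {e : T.H} (he : e ≠ 0) (P : Pen T e)
    (hb : P.Bpf) : H95.Elliptic Z := by
  have hsurj : ∀ s : P1, ∃ x, rho P hb x = s := by
    intro s
    by_contra hcon
    push Not at hcon
    have h1 : ∀ x, fibN P s x ≠ 0 := fun x hx => hcon x ((fibN_eq_zero P hb s x).1 hx)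
    have h2 : T.dv (fibN P s) = 0 := by
      by_contra h3
      obtain ⟨C, hC⟩ := Finsupp.support_nonempty_iff.2 h3
      obtain ⟨x, hx⟩ := T.zero C
      exact h1 x ((T.zero_iff (fibN_nf P s) x).2 ⟨C, hC, hx⟩)
    have h3 := T.cl_dv (fibN_nf P s)
    rw [h2, fibN_cl] at h3
    exact he (h3.symm.trans T.toCurves.cls_zero)
  obtain ⟨x, hx⟩ := hsurj P1.inf
  obtain ⟨y, hy⟩ := hsurj (P1.co 0)
  refine ⟨H610.sphere, rho P hb, fun x => holC_rho P hb x, x, y, ?_⟩
  rw [hx, hy]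
  exact (P1.co_ne_inf 0).symm

variable {Z : All.K3} {N : ℕ} {G : Geo Z} {U : UData Z.X N}

/-- the inputs of `IsoIn.exists_bpf` for the divisor theory of a K3 surface -/
theorem isoIn (T : H722.UGeo G U) (hS : H02 Z) (hev : ∀ x, Even (G.T.B x x)) :
    IsoIn G.T G.σ.ker where
  cl_mem := G.σ_cl
  hz := G.hz
  self := G.self
  even _ := hev _
  rr := G.rr
  hHI m hm y hy hmm hmy := by
    have h1 : ∀ x ∈ G.σ.ker, pair ⟨Om Z, 0, 0⟩ (U.comb (T.τ x)) = 0 := fun x hx => by
      rw [← T.σ]; exact hx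
    have h2 := hodge_pair U hS (m := T.τ m) (x := T.τ y) (by rw [T.B]; exact hmm)
      (by rw [T.B]; exact hmy) (h1 m hm) (h1 y hy)
    rw [T.B] at h2
    exact ⟨h2.1, fun h => (map_eq_zero_iff T.τ T.τ.injective).1 (h2.2 h)⟩
  hLD x hx y hy hxx hyy hxy w := by
    have h1 : ∀ x ∈ G.σ.ker, pair ⟨Om Z, 0, 0⟩ (U.comb (T.τ x)) = 0 := fun x hx => by
      rw [← T.σ]; exact hx
    have h2 := dep_pair U hS (x := T.τ x) (y := T.τ y) (by rw [T.B]; exact hxx)
      (by rw [T.B]; exact hyy) (by rw [T.B]; exact hxy) (h1 x hx) (h1 y hy) (T.τ w)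
    rw [T.B, T.B, ← map_zsmul, ← map_zsmul] at h2
    exact T.τ.injective h2
  nondeg x hx := by
    obtain ⟨w, hw⟩ := nondeg U (T.τ x) fun h => hx ((map_eq_zero_iff T.τ T.τ.injective).1 h)
    obtain ⟨w', rfl⟩ := T.τ.surjective w
    exact ⟨w', by rwa [T.B] at hw⟩
  fin := Module.Finite.equiv T.τ.symm.toIntLinearEquiv

/-- **F2-ISO.** A K3 surface with a nonzero isotropic class of type `(1,1)` is elliptic. -/
theorem elliptic_of_isotropic (T : H722.UGeo G U) (hS : H02 Z) (hev : ∀ x, Even (G.T.B x x))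
    {x : Fin N → ℤ} (hx : x ≠ 0) (hxx : U.B x x = 0)
    (hp : pair ⟨Om Z, 0, 0⟩ (U.comb x) = 0) : H95.Elliptic Z := by
  obtain ⟨y, rfl⟩ := T.τ.surjective x
  obtain ⟨e, P, he, -, hb⟩ := (isoIn T hS hev).exists_bpf (x0 := y)
    (fun h => hx (by rw [h, map_zero])) (by rw [← T.B]; exact hxx)
    (by rw [AddMonoidHom.mem_ker, T.σ]; exact hp)
  exact elliptic_of_bpf he P hb

end

end Vale.Agent.P290.H416
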