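import Vale.Agent.P290.H416.K3Hi

/-! P290 / H416, package F2-ISO: two orthogonal isotropic classes of type `(1,1)` are linearly
dependent. -/

open scoped Manifold ContDiff Topology ComplexConjugate Matrix ComplexOrder
open Set Filter Vale.Agent.P267 Vale.Agent.P267.H332 Vale.Agent.P267.FL
open Vale.Agent.P267.H469 Vale.Agent.P267.H661
open Vale.Agent.P290.H342 Vale.Agent.P290.H445 Vale.Agent.P267.BlockC Vale.Agent.P267.RR

namespace Vale.Agent.P290.H416

noncomputable section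

section abs

variable {Ω0 Ω1 Ω2 Ω3 : Type*} [AddCommGroup Ω0] [Module ℂ Ω0] [AddCommGroup Ω1]
    [Module ℂ Ω1] [AddCommGroup Ω2] [Module ℂ Ω2] [AddCommGroup Ω3] [Module ℂ Ω3]

variable {C : Calc Ω0 Ω1 Ω2 Ω3}

namespace GFun

variable (A : GFun C)

include A in
/-- a closed real `(1,1)`-form of degree zero and nonnegative square is exact -/
theorem prim_exact {F : Ω2} (hF : C.is11 F) (hFr : C.c2 F = F) (hFc : C.d2 F = 0)
    (hG : A.G (C.tr F) = 0) (h : 0 ≤ (C.I22 F F).re) : ∃ a, F = C.d1 a := by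
  obtain ⟨u, hu⟩ := A.G_surj _ hG
  set a : Ω1 := C.p01 (C.d0 u) with ha
  have h11 : C.is11 (F - C.d1 a) := hF.sub (C.is11_ddc u)
  have htr0 : C.tr (F - C.d1 a) = 0 := by rw [map_sub, hu, sub_self]
  have key : C.I22 (F - C.d1 a) (C.c2 (F - C.d1 a)) = C.I22 F F := by
    rw [C.I22_herm a hFc, hFr]
  exact ⟨a, sub_eq_zero.1 (C.neg11' _ h11 htr0 (by rw [key]; exact h))⟩

include A in
/-- isotropic orthogonal closed real `(1,1)`-forms are dependent modulo exact forms -/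
theorem dep {F F' : Ω2} (hF : C.is11 F) (hFr : C.c2 F = F) (hFc : C.d2 F = 0)
    (hF' : C.is11 F') (hFr' : C.c2 F' = F') (hFc' : C.d2 F' = 0)
    (h : C.I22 F F = 0) (h' : C.I22 F' F' = 0) (hh : C.I22 F' F = 0) :
    ∃ (s t : ℝ) (a : Ω1), (s ≠ 0 ∨ t ≠ 0) ∧ (s : ℂ) • F + (t : ℂ) • F' = C.d1 a := by
  by_cases hG : A.G (C.tr F) = 0
  · obtain ⟨a, ha⟩ := A.prim_exact hF hFr hFc hG (by rw [h]; simp)
    exact ⟨1, 0, a, Or.inl one_ne_zero, by rw [ha]; simp⟩
  · obtain ⟨t, a, ha⟩ := (A.hodge_index hF hFr hFc hG h hF' hFr' hFc' hh).2 (by rw [h']; simp)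
    refine ⟨-t, 1, a, Or.inr one_ne_zero, ?_⟩
    rw [ha]
    push_cast
    module

end GFun

variable {H : Type*} [AddCommGroup H] (T : FLat C H)

namespace FLat

/-- isotropic orthogonal classes of type `(1,1)` are dependent -/
theorem dep (A : GFun C) {Om : Ω2} (hOc : C.d2 Om = 0) (h20 : C.p20 Om = Om)
    (H02 : ∀ b, C.p02 b = b → C.I22 b Om = 0 → ∃ a, C.is01 a ∧ C.p02 (C.d1 a) = b)
    {x y : H} (hx : T.B x x = 0) (hy : T.B y y = 0) (hxy : T.B x y = 0)
    (hσx : T.per Om hOc x = 0) (hσy : T.per Om hOc y = 0) (w : H) :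
    T.B x w • y = T.B y w • x := by
  obtain ⟨b, hb, hb11⟩ := (T.lefschetz hOc h20 H02).1 hσx
  obtain ⟨c, hc, hc11⟩ := (T.lefschetz hOc h20 H02).1 hσy
  have hr : ∀ (y : H) (b : Ω1), C.c1 b = b → C.c2 (T.φ y - C.d1 b) = T.φ y - C.d1 b := by
    intro y b hb
    rw [map_sub, T.real, ← C.d1c, hb]
  have hcl : ∀ (y : H) (b : Ω1), C.d2 (T.φ y - C.d1 b) = 0 := by
    intro y b
    rw [map_sub, T.closed, C.d2d1, sub_zero]
  have hp : ∀ (y z : H) (b c : Ω1), C.I22 (T.φ y - C.d1 b) (T.φ z - C.d1 c) = (T.B y z : ℂ) := by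
    intro y z b c
    rw [I22_sub_exact (hcl z c), I22_sub_exact' (T.closed y), T.pair]
  obtain ⟨s, t, a, hst, h⟩ := A.dep hb11 (hr x b hb) (hcl x b) hc11 (hr y c hc) (hcl y c)
    (by rw [hp, hx, Int.cast_zero]) (by rw [hp, hy, Int.cast_zero])
    (by rw [hp, T.symm, hxy, Int.cast_zero])
  have key : ∀ z, s * (T.B x z : ℝ) + t * (T.B y z : ℝ) = 0 := by
    intro z
    have h1 : C.I22 ((s : ℂ) • (T.φ x - C.d1 b) + (t : ℂ) • (T.φ y - C.d1 c)) (T.φ z) = 0 := by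
      rw [h, C.I22_exact _ (T.closed z)]
    rw [map_add, LinearMap.add_apply, map_smul, map_smul, LinearMap.smul_apply,
      LinearMap.smul_apply, I22_sub_exact (T.closed z), I22_sub_exact (T.closed z), T.pair,
      T.pair, smul_eq_mul, smul_eq_mul] at h1
    exact_mod_cast h1
  refine sub_eq_zero.1 (T.nondeg _ fun z => ?_)
  rw [map_sub, AddMonoidHom.sub_apply, map_zsmul, map_zsmul, AddMonoidHom.zsmul_apply,
    AddMonoidHom.zsmul_apply, smul_eq_mul, smul_eq_mul]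
  have h1 := key w
  have h2 := key z
  have h3 : ((T.B x w : ℝ) * (T.B y z : ℝ) - (T.B y w : ℝ) * (T.B x z : ℝ)) = 0 := by
    rcases hst with hs | ht
    · refine (mul_eq_zero.1 (?_ : s * _ = 0)).resolve_left hs
      linear_combination (T.B y z : ℝ) * h1 - (T.B y w : ℝ) * h2
    · refine (mul_eq_zero.1 (?_ : t * _ = 0)).resolve_left ht
      linear_combination (T.B x w : ℝ) * h2 - (T.B x z : ℝ) * h1
  exact_mod_cast h3

end FLat

end abs

section U

variable {X : All.K3} {N : ℕ} (U : UData X.X N)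

theorem dep (hS : H02 X) {x y : Fin N → ℤ} (hx : U.B x x = 0) (hy : U.B y y = 0)
    (hxy : U.B x y = 0) (hσx : sig U x = 0) (hσy : sig U y = 0) (w : Fin N → ℤ) :
    U.B x w • y = U.B y w • x := by
  obtain ⟨g, hg⟩ := exists_isHerm X.X
  exact (flat hg U).dep (scal0 hg) (Om := OmL X) (D2_OmL X) rfl
    (fun b hb h0 => hS.abs hg b hb h0) hx hy hxy hσx hσy w

/-- isotropic orthogonal classes of type `(1,1)` are dependent -/
theorem dep_pair (hS : H02 X) {x y : Fin N → ℤ} (hx : U.B x x = 0) (hy : U.B y y = 0)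
    (hxy : U.B x y = 0) (hσx : pair ⟨Om X, 0, 0⟩ (U.comb x) = 0)
    (hσy : pair ⟨Om X, 0, 0⟩ (U.comb y) = 0) (w : Fin N → ℤ) :
    U.B x w • y = U.B y w • x :=
  dep U hS hx hy hxy ((sig_zero_iff_pair U x).2 hσx) ((sig_zero_iff_pair U y).2 hσy) w

theorem nondeg (x : Fin N → ℤ) (hx : x ≠ 0) : ∃ w, U.B x w ≠ 0 := by
  obtain ⟨g, hg⟩ := exists_isHerm X.X
  by_contra hcon
  push Not at hcon
  exact hx ((flat hg U).nondeg x hcon)

end U

end

end Vale.Agent.P290.H416
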