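import Vale.Agent.P290.H416.K3U

/-! P290 / H416, package F2-ISO: the Hodge index theorem for the classes of type `(1,1)` of a K3
surface (no Kaehler metric): `m² > 0`, `m.x = 0`, `σ(m) = σ(x) = 0` imply `x² ≤ 0`, with equality
only for `x = 0`. -/

open scoped Manifold ContDiff Topology ComplexConjugate Matrix ComplexOrder
open Set Filter Vale.Agent.P267 Vale.Agent.P267.H332 Vale.Agent.P267.FL
open Vale.Agent.P267.H469 Vale.Agent.P267.H661
open Vale.Agent.P290.H342 Vale.Agent.P290.H445 Vale.Agent.P267.BlockC Vale.Agent.P267.RR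

namespace Vale.Agent.P290.H416

noncomputable section

section abs

variable {Ω0 Ω1 Ω2 Ω3 : Type*} [AddCommGroup Ω0] [Module ℂ Ω0] [AddCommGroup Ω1]
    [Module ℂ Ω1] [AddCommGroup Ω2] [Module ℂ Ω2] [AddCommGroup Ω3] [Module ℂ Ω3]

variable {C : Calc Ω0 Ω1 Ω2 Ω3}

namespace GFun

variable (A : GFun C)

include A in
/-- a closed real `(1,1)`-form of positive square has nonzero degree -/
theorem G_ne_zero {ε : Ω2} (hε : C.is11 ε) (hεr : C.c2 ε = ε) (hεc : C.d2 ε = 0)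
    (hεε : 0 < (C.I22 ε ε).re) : A.G (C.tr ε) ≠ 0 := by
  intro h0
  obtain ⟨u, hu⟩ := A.G_surj _ h0
  set a : Ω1 := C.p01 (C.d0 u) with ha
  have h11 : C.is11 (ε - C.d1 a) := hε.sub (C.is11_ddc u)
  have htr0 : C.tr (ε - C.d1 a) = 0 := by rw [map_sub, hu, sub_self]
  have key : C.I22 (ε - C.d1 a) (C.c2 (ε - C.d1 a)) = C.I22 ε ε := by
    rw [C.I22_herm a hεc, hεr]
  have h1 := C.neg11 _ h11 htr0
  rw [key] at h1
  linarith

include A in
/-- **Hodge index** for closed real `(1,1)`-forms. -/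
theorem hodge_pos {ε F : Ω2} (hε : C.is11 ε) (hεr : C.c2 ε = ε) (hεc : C.d2 ε = 0)
    (hεε : 0 < (C.I22 ε ε).re)
    (hF : C.is11 F) (hFr : C.c2 F = F) (hFc : C.d2 F = 0) (hFε : C.I22 F ε = 0) :
    (C.I22 F F).re ≤ 0 ∧ (0 ≤ (C.I22 F F).re → ∃ a : Ω1, F = C.d1 a) := by
  have hεG := A.G_ne_zero hε hεr hεc hεε
  set t : ℂ := A.G (C.tr F) / A.G (C.tr ε) with ht
  have hconj : ∀ F : Ω2, C.c2 F = F → conj (A.G (C.tr F) / A.G C.one) =
      - (A.G (C.tr F) / A.G C.one) := by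
    intro F hF
    have h := A.G_conj (C.tr F)
    have h2 := C.tr_conj F
    rw [hF] at h2
    have h3 : C.c0 (C.tr F) = - C.tr F := (neg_eq_iff_eq_neg.2 h2).symm
    rw [h3, map_neg] at h
    have h4 := A.G_one
    field_simp at h ⊢
    linear_combination (norm := ring_nf) -h
  have htr : conj t = t := by
    have e1 := hconj F hFr
    have e2 := hconj ε hεr
    have e3 : t = (A.G (C.tr F) / A.G C.one) / (A.G (C.tr ε) / A.G C.one) := by
      rw [ht, div_div_div_cancel_right₀ A.G_one]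
    rw [e3, map_div₀, e1, e2, neg_div_neg_eq]
  obtain ⟨r, hr⟩ : ∃ r : ℝ, (r : ℂ) = t := Complex.conj_eq_iff_real.1 htr |>.imp fun _ h => h.symm
  have hG0 : A.G (C.tr (F - t • ε)) = 0 := by
    rw [map_sub, map_smul, map_sub, map_smul, smul_eq_mul, ht, div_mul_cancel₀ _ hεG, sub_self]
  obtain ⟨u, hu⟩ := A.G_surj _ hG0
  set a : Ω1 := C.p01 (C.d0 u) with ha
  set F' : Ω2 := F - t • ε - C.d1 a with hF'
  have h11 : C.is11 F' := (hF.sub (hε.smul t)).sub (C.is11_ddc u)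
  have htr0 : C.tr F' = 0 := by rw [hF', map_sub, hu, sub_self]
  have hcl : C.d2 (F - t • ε) = 0 := by rw [map_sub, map_smul, hFc, hεc, smul_zero, sub_zero]
  have hre : C.c2 (F - t • ε) = F - t • ε := by
    rw [map_sub, LinearMap.map_smulₛₗ, hFr, hεr, htr]
  have key : C.I22 F' (C.c2 F') = C.I22 F F + (r : ℂ) * r * C.I22 ε ε := by
    rw [hF', C.I22_herm a hcl, hre, hr]
    simp only [map_sub, map_smul, LinearMap.sub_apply, LinearMap.smul_apply, smul_eq_mul]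
    rw [hFε, C.I22_symm ε F, hFε]
    ring
  have key' : (C.I22 F' (C.c2 F')).re = (C.I22 F F).re + r * r * (C.I22 ε ε).re := by
    rw [key, Complex.add_re, ← Complex.ofReal_mul, Complex.re_ofReal_mul]
  have h1 := C.neg11 _ h11 htr0
  rw [key'] at h1
  have h2 : 0 ≤ r * r * (C.I22 ε ε).re := mul_nonneg (mul_self_nonneg r) hεε.le
  refine ⟨by linarith, fun h => ?_⟩
  have h3 : r * r * (C.I22 ε ε).re = 0 := by linarith
  have h4 : r = 0 := by
    rcases mul_eq_zero.1 h3 with h | h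
    · exact mul_self_eq_zero.1 h
    · exact absurd h hεε.ne'
  have h0 := C.neg11' _ h11 htr0 (by rw [key', h3, add_zero]; exact h)
  refine ⟨a, ?_⟩
  rw [hF', ← hr, h4, Complex.ofReal_zero, zero_smul, sub_zero] at h0
  exact sub_eq_zero.1 h0

end GFun

variable {H : Type*} [AddCommGroup H] (T : FLat C H)

namespace FLat

/-- **Hodge index** on the lattice. -/
theorem hodge_pos (A : GFun C) {Om : Ω2} (hOc : C.d2 Om = 0) (h20 : C.p20 Om = Om)
    (H02 : ∀ b, C.p02 b = b → C.I22 b Om = 0 → ∃ a, C.is01 a ∧ C.p02 (C.d1 a) = b)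
    {m x : H} (hm : 0 < T.B m m) (hmx : T.B m x = 0) (hσm : T.per Om hOc m = 0)
    (hσ : T.per Om hOc x = 0) : T.B x x ≤ 0 ∧ (T.B x x = 0 → x = 0) := by
  obtain ⟨b, hb, hb11⟩ := (T.lefschetz hOc h20 H02).1 hσm
  obtain ⟨c, hc, hc11⟩ := (T.lefschetz hOc h20 H02).1 hσ
  have hr : ∀ (y : H) (b : Ω1), C.c1 b = b → C.c2 (T.φ y - C.d1 b) = T.φ y - C.d1 b := by
    intro y b hb
    rw [map_sub, T.real, ← C.d1c, hb]
  have hcl : ∀ (y : H) (b : Ω1), C.d2 (T.φ y - C.d1 b) = 0 := by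
    intro y b
    rw [map_sub, T.closed, C.d2d1, sub_zero]
  have hp : ∀ (y z : H) (b c : Ω1), C.I22 (T.φ y - C.d1 b) (T.φ z - C.d1 c) = (T.B y z : ℂ) := by
    intro y z b c
    rw [I22_sub_exact (hcl z c), I22_sub_exact' (T.closed y), T.pair]
  obtain ⟨h1, h2⟩ := A.hodge_pos hb11 (hr m b hb) (hcl m b)
    (by rw [hp, Complex.intCast_re]; exact_mod_cast hm) hc11 (hr x c hc) (hcl x c)
    (by rw [hp, T.symm, hmx, Int.cast_zero])
  rw [hp, Complex.intCast_re] at h1 h2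
  refine ⟨by exact_mod_cast h1, fun h0 => ?_⟩
  obtain ⟨a, ha⟩ := h2 (by rw [h0]; simp)
  refine T.nondeg _ fun y => ?_
  have h3 : T.φ x = C.d1 (a + c) := by
    rw [map_add, ← ha, sub_add_cancel]
  have h4 := T.pair x y
  rw [h3, C.I22_exact _ (T.closed y)] at h4
  exact_mod_cast h4.symm

end FLat

end abs

section U

variable {X : All.K3} {N : ℕ} (U : UData X.X N)

/-- **Hodge index** for the classes of type `(1,1)`. -/
theorem hodge_pos (hS : H02 X) {m x : Fin N → ℤ} (hm : 0 < U.B m m) (hmx : U.B m x = 0)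
    (hσm : sig U m = 0) (hσ : sig U x = 0) : U.B x x ≤ 0 ∧ (U.B x x = 0 → x = 0) := by
  obtain ⟨g, hg⟩ := exists_isHerm X.X
  exact (flat hg U).hodge_pos (scal0 hg) (Om := OmL X) (D2_OmL X) rfl
    (fun b hb h0 => hS.abs hg b hb h0) hm hmx hσm hσ

/-- **Hodge index**, with the normalisation `σ(x) = pair Om (comb x)` -/
theorem hodge_pair (hS : H02 X) {m x : Fin N → ℤ} (hm : 0 < U.B m m) (hmx : U.B m x = 0)
    (hσm : pair ⟨Om X, 0, 0⟩ (U.comb m) = 0) (hσ : pair ⟨Om X, 0, 0⟩ (U.comb x) = 0) :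
    U.B x x ≤ 0 ∧ (U.B x x = 0 → x = 0) :=
  hodge_pos U hS hm hmx ((sig_zero_iff_pair U m).2 hσm) ((sig_zero_iff_pair U x).2 hσ)

end U

end

end Vale.Agent.P290.H416
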