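import Vale.Agent.P267.H469.CalcInst
import Vale.Agent.P267.H661.GS0
import Vale.Agent.P267.H661.Const
import Vale.Agent.P290.H416.K3Lat

/-! P290 / H416: the abstract statements of `K3Calc` for smooth forms on a compact connected complex
surface, in the literal language of helper399 (`FL`). -/

set_option linter.unusedSectionVars false
set_option linter.unusedVariables false

open scoped Manifold ContDiff ComplexConjugate Topology ComplexOrder Matrix
open MeasureTheory Set

noncomputable section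

namespace Vale.Agent.P290.H416

open Vale.Agent.P267.FL Vale.Agent.P267.H469 Vale.Agent.P267.H661

variable {X : Type*} [TopologicalSpace X] [ChartedSpace C2 X] [IsManifold 𝓘(ℂ, C2) ω X]
variable [T2Space X] [CompactSpace X] [ConnectedSpace X]
variable {h : X → Matrix (Fin 2) (Fin 2) ℂ} (hh : IsHerm h)

/-- the calculus of smooth forms of a compact connected complex surface -/
def calc0 : Calc (S0 X) (Om1 X) (Om2 X) (Om3 X) :=
  calcX hh fun _ hs h0 => const_of_ddb hh hs fun x => congrFun h0 x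

/-- the Gauduchon functional -/
def scal0 : GFun (calc0 hh) where
  G := gS0 hh
  G_one := by
    have h1 : gS0 hh (calc0 hh).one = 1 := gS0_one hh
    rw [h1]
    exact one_ne_zero
  G_ddc u := by
    have h1 : (calc0 hh).tr ((calc0 hh).d1 ((calc0 hh).p01 ((calc0 hh).d0 u))) =
        trL0 hh (del1L (dbar0L u) + dbar10L (0 : S10 X)) := rfl
    rw [h1, map_zero, add_zero]
    exact gS0_tr hh u
  G_surj g hg := by
    obtain ⟨u, hu⟩ := gS0_surj hh g hg
    refine ⟨u, ?_⟩
    have h1 : (calc0 hh).tr ((calc0 hh).d1 ((calc0 hh).p01 ((calc0 hh).d0 u))) =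
        trL0 hh (del1L (dbar0L u) + dbar10L (0 : S10 X)) := rfl
    rw [h1, map_zero, add_zero, hu]

/-! ### translation -/

/-- a smooth two-form as a triple -/
def mk2 (F : TwoF X) (hF : F.Smooth) : Om2 X := (⟨F.f20, hF.s20⟩, ⟨F.f11, hF.s11⟩, ⟨F.f02, hF.s02⟩)

/-- a smooth one-form as a pair -/
def mk1 (A : OneF X) (hA : A.Smooth) : Om1 X := (⟨A.f10, hA.s10⟩, ⟨A.f01, hA.s01⟩)

/-- a pair as a one-form -/
def toA (A : Om1 X) : OneF X := ⟨A.1, A.2⟩

theorem toA_smooth (A : Om1 X) : (toA A).Smooth := ⟨A.1.2, A.2.2⟩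

theorem toF_mk2 (F : TwoF X) (hF : F.Smooth) : toF (mk2 F hF) = F := rfl

theorem mk2_toF (F : Om2 X) : mk2 (toF F) (toF_smooth F) = F := rfl

theorem toF_D1 (A : Om1 X) : toF (D1 A) = (toA A).d := rfl

theorem toF_inj {F G : Om2 X} (e : toF F = toF G) : F = G := by
  have e1 := congrArg TwoF.f20 e
  have e2 := congrArg TwoF.f11 e
  have e3 := congrArg TwoF.f02 e
  exact Prod.ext (Subtype.ext e1) (Prod.ext (Subtype.ext e2) (Subtype.ext e3))

theorem closed_iff {F : Om2 X} : D2 F = 0 ↔ (toF F).Closed := by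
  have h21 : (toF F).d21 = ((D2 F).1 : X → Fin 2 → ℂ) := rfl
  have h12 : (toF F).d12 = ((D2 F).2 : X → Fin 2 → ℂ) := d12_eq (toF F)
  constructor
  · intro h0
    refine ⟨fun x j => ?_, fun x i => ?_⟩
    · rw [h21, h0]; rfl
    · rw [h12, h0]; rfl
  · rintro ⟨h1, h2⟩
    refine Prod.ext (Subtype.ext ?_) (Subtype.ext ?_)
    · rw [← h21]; funext x j; exact h1 x j
    · rw [← h12]; funext x j; exact h2 x j

theorem real_iff {F : Om2 X} : C2L F = F ↔ (toF F).Real := by
  constructor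
  · intro h0 x
    have e1 := congrArg (fun G : Om2 X => (G.1 : X → ℂ) x) h0
    have e2 := fun i j => congrArg
      (fun G : Om2 X => (G.2.1 : X → Matrix (Fin 2) (Fin 2) ℂ) x i j) h0
    refine ⟨e1.symm, fun i j => ?_⟩
    have e3 := e2 j i
    exact e3.symm
  · intro h0
    refine Prod.ext (Subtype.ext ?_) (Prod.ext (Subtype.ext ?_) (Subtype.ext ?_))
    · funext x; exact (h0 x).1.symm
    · funext x; ext i j; exact ((h0 x).2 j i).symm
    · funext x
      have := congrArg conj (h0 x).1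
      rw [Complex.conj_conj] at this
      exact this

/-- pairing -/
theorem I22_eq (F G : Om2 X) : (calc0 hh).I22 F G = intX ((toF F).wedge (toF G)) := rfl

/-! ### positivity -/

omit [T2Space X] [CompactSpace X] [ConnectedSpace X] [IsManifold 𝓘(ℂ, C2) ω X] in
/-- trace of a nonnegative form -/
theorem trace_psd {m g : Matrix (Fin 2) (Fin 2) ℂ} (hm : m.PosDef) (hg : g.PosSemidef) :
    ∃ r : ℝ, 0 ≤ r ∧ (m⁻¹ * g).trace = r ∧ (r = 0 → g = 0) := by
  obtain ⟨R, hR⟩ := exists_root hm.inv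
  have hps : (R * g * Rᴴ).PosSemidef := by
    have := hg.mul_mul_conjTranspose_same R
    exact this
  have htr : (m⁻¹ * g).trace = (R * g * Rᴴ).trace := by
    rw [hR, Matrix.mul_assoc, Matrix.trace_mul_comm]
  have hnn := hps.trace_nonneg
  rw [← htr] at hnn
  obtain ⟨h1, h2⟩ := Complex.le_def.1 hnn
  refine ⟨(m⁻¹ * g).trace.re, h1, ?_, fun h0 => ?_⟩
  · exact Complex.ext rfl h2.symm
  · have h3 : (R * g * Rᴴ).trace = 0 := by
      rw [← htr]
      exact Complex.ext h0 h2.symm
    have h4 : R * g * Rᴴ = 0 := hps.trace_eq_zero_iff.1 h3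
    have hdet : IsUnit (m⁻¹).det := by
      rw [Matrix.isUnit_nonsing_inv_det_iff]
      exact (Matrix.isUnit_iff_isUnit_det _).1 hm.isUnit
    rw [hR, Matrix.det_mul] at hdet
    have hR1 : IsUnit R.det := isUnit_of_mul_isUnit_right hdet
    have hR2 : IsUnit Rᴴ.det := isUnit_of_mul_isUnit_left hdet
    have h5 : R⁻¹ * (R * g * Rᴴ) * Rᴴ⁻¹ = g := by
      rw [Matrix.mul_assoc R, ← Matrix.mul_assoc R⁻¹, Matrix.nonsing_inv_mul _ hR1, Matrix.one_mul,
        Matrix.mul_assoc, Matrix.mul_nonsing_inv _ hR2, Matrix.mul_one]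
    rw [← h5, h4, Matrix.mul_zero, Matrix.zero_mul]

/-- the Gauduchon functional is positive on traces of semipositive forms -/
theorem gS0_pos {F : Om2 X} {g : X → Matrix (Fin 2) (Fin 2) ℂ}
    (hg : ∀ x, (g x).PosSemidef) (hF : ∀ x, (toF F).f11 x = Complex.I • g x) (hne : ∃ x, g x ≠ 0) :
    (scal0 hh).G ((calc0 hh).tr F) ≠ 0 := by
  choose r hr0 hr1 hr2 using fun x => trace_psd (hh.posDef x) (hg x)
  have hsm : Reg0 ∞ 0 (trh h (toF F).f11) := ((calc0 hh).tr F).2
  have he : trh h (toF F).f11 = fun x => Complex.I * (cx r) x := by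
    funext x
    rw [trh, hF, Matrix.mul_smul, Matrix.trace_smul, hr1, smul_eq_mul]
    rfl
  have hrs : Vale.Agent.P272.K.LIN.CkFn C2 ∞ r := by
    have h1 := imF_ck (reg0_iff.1 hsm)
    have h2 : imF (trh h (toF F).f11) = r := by
      funext x
      rw [he]
      simp [imF, cx]
    rwa [h2] at h1
  have h1 : (scal0 hh).G ((calc0 hh).tr F) = gfun hh (trh h (toF F).f11) := rfl
  rw [h1, he, gfun_smul hh (cx_ck hrs), gfun_cx]
  obtain ⟨x0, hx0⟩ := hne
  have hpos : 0 < r x0 := lt_of_le_of_ne (hr0 x0) fun h0 => hx0 (hr2 x0 h0.symm)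
  have h2 := (gop hh).c_pos hrs (fun x => hr0 x) hpos
  exact mul_ne_zero Complex.I_ne_zero (Complex.ofReal_ne_zero.2 h2.ne')

end Vale.Agent.P290.H416
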